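import Vale.Agent.P210E.Defs
import Vale.Agent.P210U.Loc
import Vale.Agent.P366H.Fn

/-!
# P210Z: the linear homotopies and the new map (`HOM1`, `HOM2`, `FIN`; helper78)
-/

open Filter Topology Set
open scoped ContDiff
open Vale.Agent.P366M Vale.Agent.P210G Vale.Agent.P210U Vale.Agent.P210E
open Vale.Agent.P366H (DD DD_ge s1 s1_nn s1_le hd0 sm_st)
open Fin (last)
open Real (smoothTransition)

noncomputable section

namespace Vale.Agent.P210Z

theorem sum_half {k : ℕ} (p q : Fin k → ℝ) :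
    (∑ j, p j ^ 2) / 2 - ∑ j, q j ^ 2 ≤ ∑ j, (p j + q j) ^ 2 := by
  rw [Finset.sum_div, ← Finset.sum_sub_distrib]
  exact Finset.sum_le_sum fun j _ => by nlinarith [sq_nonneg (p j + 2 * q j)]

theorem hom1 : HOM1 := by
  intro k c a b b₀ E c0 c1 lo hi h0 hp hpar
  have sb : 0 ≤ ∑ j, b j ^ 2 := Finset.sum_nonneg fun _ _ => sq_nonneg _
  have hb : (∑ j, b j ^ 2) / 2 - ∑ j, b₀ j ^ 2 ≤ ∑ j, (b j - b₀ j) ^ 2 := by
    simpa only [neg_sq, ← sub_eq_add_neg] using sum_half b fun j => -b₀ j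
  refine ⟨by nlinarith, fun s hs => ⟨?_, ?_⟩⟩
  · have nn : 0 ≤ ∑ j, ((1 - s) * b j + s * E j) ^ 2 := Finset.sum_nonneg fun _ _ => sq_nonneg _
    rcases lt_or_ge (1 / 128) (a ^ 2) with ha | ha
    · linarith
    obtain ⟨μ, hμ, e⟩ := hpar (Or.inr (by linarith))
    have k1 := sum_half (fun j => (1 - s + s * μ) * (b j - b₀ j)) fun j => (1 - s) * b₀ j
    have e1 : ∀ j, (1 - s + s * μ) * (b j - b₀ j) + (1 - s) * b₀ j = (1 - s) * b j + s * E j :=
      fun j => by rw [e]; ring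
    simp only [e1, mul_pow, ← Finset.mul_sum] at k1
    have l1 : 1 ≤ 1 - s + s * μ := by nlinarith [hs.1]
    have l2 : 1 ≤ (1 - s + s * μ) ^ 2 := one_le_pow₀ l1
    have l3 : (1 - s) ^ 2 ≤ 1 := by nlinarith [hs.1, hs.2]
    have s0 : 0 ≤ ∑ j, b₀ j ^ 2 := Finset.sum_nonneg fun _ _ => sq_nonneg _
    have s1 : 0 ≤ ∑ j, (b j - b₀ j) ^ 2 := Finset.sum_nonneg fun _ _ => sq_nonneg _
    nlinarith [mul_le_mul_of_nonneg_right l2 s1, mul_le_mul_of_nonneg_right l3 s0, sq_nonneg a]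
  · rcases lt_or_ge 0 a with ha | ha
    · linarith [hp ha, sq_nonneg (a - 2 * s)]
    obtain ⟨μ, hμ, e⟩ := hpar (Or.inl ha)
    simp only [e, mul_pow, ← Finset.mul_sum]
    have l2 : 1 ≤ μ ^ 2 := one_le_pow₀ hμ
    have s1 : 0 ≤ ∑ j, (b j - b₀ j) ^ 2 := Finset.sum_nonneg fun _ _ => sq_nonneg _
    have l4 : a ^ 2 ≤ (a - 2 * s) ^ 2 := by nlinarith [hs.1, mul_nonneg hs.1 (neg_nonneg.2 ha)]
    nlinarith [mul_le_mul_of_nonneg_right l2 s1, sq_nonneg a]

theorem hom2 : HOM2 := by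
  intro k X _ c a b E x ha hb hE h
  refine ((ha.tendsto x).eventually (eventually_lt_nhds h.1)).and ?_
  refine isCompact_Icc.eventually_forall_of_forall_eventually fun s hs => ?_
  have c1 : Continuous fun p : X × ℝ =>
      a p.1 ^ 2 + ∑ j, ((1 - p.2) * b j p.1 + p.2 * E j p.1) ^ 2 := by fun_prop
  have c2 : Continuous fun p : X × ℝ => (a p.1 - 2 * p.2) ^ 2 + ∑ j, E j p.1 ^ 2 := by fun_prop
  exact ((c1.tendsto (x, s)).eventually (eventually_gt_nhds (h.2 s hs).1)).and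
    ((c2.tendsto (x, s)).eventually (eventually_gt_nhds (h.2 s hs).2))

section

variable {n : ℕ} {M : Type} [Mf0 n M] {g g₀ : Fld n M} {s f h u : M → ℝ} {x : M}

/-- interpolation with a function -/
def it (s f h : M → ℝ) (x : M) : ℝ := (1 - s x) * f x + s x * h x

theorem sm_it (hs : Smooth s) (hf : Smooth f) (hh : Smooth h) : Smooth (it s f h) :=
  CD.add (CD.mul (CD.sub cd_const hs) hf) (CD.mul hs hh)

theorem gn_lin3 (hg : Met g) {F : M → ℝ} {a b c : ℝ}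
    (e : ∀ i, pd i F x = a * pd i f x + b * pd i h x + c * pd i s x) :
    gn g F x ≤ |a| * gn g f x + |b| * gn g h x + |c| * gn g s x := by
  have q : ∀ A B : Fin n → ℝ, √(∑ i, ∑ j, up g i j x * (A i + B i) * (A j + B j)) ≤
      √(∑ i, ∑ j, up g i j x * A i * A j) + √(∑ i, ∑ j, up g i j x * B i * B j) := fun A B => by
    have c1 := hg.up_cs x A B
    have a0 := hg.up_nonneg x A
    have b0 := hg.up_nonneg x B
    have sy : ∑ i, ∑ j, up g i j x * B i * A j = ∑ i, ∑ j, up g i j x * A i * B j := by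
      rw [Finset.sum_comm]
      exact Finset.sum_congr rfl fun i _ => Finset.sum_congr rfl fun j _ => by
        rw [hg.up_sy]; ring
    have ex : ∑ i, ∑ j, up g i j x * (A i + B i) * (A j + B j) =
        ∑ i, ∑ j, up g i j x * A i * A j + ∑ i, ∑ j, up g i j x * A i * B j +
          ∑ i, ∑ j, up g i j x * B i * A j + ∑ i, ∑ j, up g i j x * B i * B j := by
      simp only [← Finset.sum_add_distrib]
      exact Finset.sum_congr rfl fun i _ => Finset.sum_congr rfl fun j _ => by ring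
    rw [ex, sy]
    refine Real.sqrt_le_iff.2 ⟨by positivity, ?_⟩
    have c2 := Real.abs_le_sqrt c1
    rw [Real.sqrt_mul a0] at c2
    rw [add_sq, Real.sq_sqrt a0, Real.sq_sqrt b0]
    linarith [le_abs_self (∑ i, ∑ j, up g i j x * A i * B j)]
  have m : ∀ (t : ℝ) (w : M → ℝ), √(∑ i, ∑ j, up g i j x * (t * pd i w x) * (t * pd j w x)) =
      |t| * gn g w x := fun t w => by
    rw [gn, ip, ← Real.sqrt_sq_eq_abs, ← Real.sqrt_mul (sq_nonneg _)]
    simp only [Finset.mul_sum]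
    exact congrArg _ (Finset.sum_congr rfl fun i _ => Finset.sum_congr rfl fun j _ => by ring)
  rw [← m, ← m, ← m, gn, ip]
  simp only [e]
  exact (q _ _).trans (add_le_add_left (q _ _) _)

theorem gn_it (hg : Met g) (hs : DAt s x) (hf : DAt f x) (hh : DAt h x) (s0 : 0 ≤ s x)
    (s1 : s x ≤ 1) :
    gn g (it s f h) x ≤ (1 - s x) * gn g f x + s x * gn g h x + |h x - f x| * gn g s x := by
  have := gn_lin3 hg (F := it s f h) (x := x) (f := f) (h := h) (s := s) (a := 1 - s x) (b := s x)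
    (c := h x - f x) fun i => by
      unfold it
      rw [pd_add ((hs.const_sub 1).mul hf) (hs.mul hh), pd_mul (hs.const_sub 1) hf, pd_mul hs hh,
        pd_const_sub]
      ring
  rwa [abs_of_nonneg (sub_nonneg.2 s1), abs_of_nonneg s0] at this

/-- a step function of `u` -/
def sg (b A : ℝ) (u : M → ℝ) (x : M) : ℝ := smoothTransition (b + A * u x)

theorem sm_sg (hu : Smooth u) (b A : ℝ) : Smooth (sg b A u) :=
  sm_st.compM (CD.add cd_const (CD.mul cd_const hu))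

theorem gn_sg (hu : Smooth u) (h1 : gn g u x ≤ 1) (b A : ℝ) : gn g (sg b A u) x ≤ DD * |A| := by
  have h : HasDerivAt (fun t => smoothTransition (b + A * t)) (s1 (b + A * u x) * A) (u x) :=
    (hd0 _).comp (u x) (by simpa using ((hasDerivAt_id (u x)).const_mul A).const_add b)
  have := gn_comp (g := g) h (hu.diff x)
  unfold sg
  rw [this, abs_mul, abs_of_nonneg (s1_nn _)]
  calc s1 (b + A * u x) * |A| * gn g u x ≤ s1 (b + A * u x) * |A| * 1 :=
        mul_le_mul_of_nonneg_left h1 (mul_nonneg (s1_nn _) (abs_nonneg _))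
    _ ≤ DD * |A| := by
        rw [mul_one]; exact mul_le_mul_of_nonneg_right (s1_le _) (abs_nonneg _)

theorem sg0 (b A : ℝ) (u : M → ℝ) (x : M) : 0 ≤ sg b A u x := smoothTransition.nonneg _

theorem sg1 (b A : ℝ) (u : M → ℝ) (x : M) : sg b A u x ≤ 1 := smoothTransition.le_one _

theorem sg_m0 {b ρ : ℝ} (ρ0 : 0 < ρ) (h : b * ρ ≤ u x) : sg b (-ρ⁻¹) u x = 0 :=
  smoothTransition.zero_of_nonpos (by
    have := (le_div_iff₀ ρ0).2 h
    rw [div_eq_inv_mul] at this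
    linarith)

theorem sg_m1 {b ρ : ℝ} (ρ0 : 0 < ρ) (h : u x ≤ (b - 1) * ρ) : sg b (-ρ⁻¹) u x = 1 :=
  smoothTransition.one_of_one_le (by
    have := (div_le_iff₀ ρ0).2 h
    rw [div_eq_inv_mul] at this
    linarith)

theorem gn_last (hg : Met g) {a s₂ s₃ : M → ℝ} {l κ B e ε : ℝ} (sa : Smooth a) (ss₂ : Smooth s₂)
    (ss₃ : Smooth s₃) (r0 : 0 ≤ s₂ x) (r1 : s₂ x ≤ 1) (t0 : 0 ≤ s₃ x) (t1 : s₃ x ≤ 1)
    (g2 : gn g s₂ x ≤ κ) (g3 : gn g s₃ x ≤ κ) (ha : |a x| ≤ 2) (l0 : 0 < l) (lB : l ≤ B)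
    (ga : l * gn g a x ≤ e) (hκ : 8 * (B + 1) ^ 2 * κ ≤ ε) :
    l * gn g (it s₃ (fun y => a y - 2 * s₂ y) fun _ => -2) x ≤ e + ε := by
  have κ0 : 0 ≤ κ := (gn_nonneg _ _ _).trans g2
  have sP : Smooth fun y => a y - 2 * s₂ y := CD.sub sa (CD.mul cd_const ss₂)
  have k1 := gn_it hg (ss₃.diff x) (sP.diff x) (dAt_const (-2 : ℝ)) t0 t1
  have k2 := gn_lin3 hg (F := fun y => a y - 2 * s₂ y) (x := x) (f := a) (h := s₂) (s := a)
    (a := 1) (b := -2) (c := 0) fun i => by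
      rw [pd_sub (sa.diff x) ((ss₂.diff x).const_mul 2), pd_const_mul]; ring
  have k3 : |(-2 : ℝ) - (a x - 2 * s₂ x)| ≤ 4 := by
    have := abs_le.1 ha
    exact abs_le.2 ⟨by linarith, by linarith⟩
  have k4 := mul_le_mul k3 g3 (gn_nonneg _ _ _) (by norm_num)
  norm_num at k2
  rw [gn_zero fun j => pd_const _ j x] at k1
  have k6 : gn g (it s₃ (fun y => a y - 2 * s₂ y) fun _ => -2) x ≤ gn g a x + 6 * κ := by
    nlinarith [mul_nonneg t0 (gn_nonneg g (fun y => a y - 2 * s₂ y) x)]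
  have lκ : l * κ ≤ B * κ := mul_le_mul_of_nonneg_right lB κ0
  have B0 : 0 ≤ B := l0.le.trans lB
  nlinarith [mul_le_mul_of_nonneg_left k6 l0.le, mul_nonneg B0 κ0, mul_nonneg (sq_nonneg B) κ0]

theorem gn_cast (hg : Met g) {b E s₁ s₃ : M → ℝ} {l κ B e ε : ℝ} (sb : Smooth b) (sE : Smooth E)
    (ss₁ : Smooth s₁) (ss₃ : Smooth s₃) (r0 : 0 ≤ s₁ x) (r1 : s₁ x ≤ 1) (t0 : 0 ≤ s₃ x)
    (t1 : s₃ x ≤ 1) (g1 : gn g s₁ x ≤ κ) (g3 : gn g s₃ x ≤ κ) (hb : |b x| ≤ 2) (hE : |E x| ≤ B)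
    (l0 : 0 < l) (lB : l ≤ B) (gb : l * gn g b x ≤ e) (gE : l * gn g E x ≤ e)
    (hκ : 8 * (B + 1) ^ 2 * κ ≤ ε) : l * gn g (it s₃ (it s₁ b E) fun _ => 0) x ≤ e + ε := by
  have κ0 : 0 ≤ κ := (gn_nonneg _ _ _).trans g1
  have B0 : 0 ≤ B := l0.le.trans lB
  have sI := sm_it ss₁ sb sE
  have k1 := gn_it hg (ss₃.diff x) (sI.diff x) (dAt_const (0 : ℝ)) t0 t1
  have k2 := gn_it hg (ss₁.diff x) (sb.diff x) (sE.diff x) r0 r1
  have b1 := abs_le.1 hb
  have b2 := abs_le.1 hE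
  have k3 : |0 - it s₁ b E x| ≤ B + 2 := by
    unfold it
    refine abs_le.2 ⟨?_, ?_⟩ <;>
      nlinarith [mul_le_mul_of_nonneg_left b1.1 (sub_nonneg.2 r1),
        mul_le_mul_of_nonneg_left b1.2 (sub_nonneg.2 r1), mul_le_mul_of_nonneg_left b2.1 r0,
        mul_le_mul_of_nonneg_left b2.2 r0, mul_nonneg B0 (sub_nonneg.2 r1)]
  have k4 := mul_le_mul k3 g3 (gn_nonneg _ _ _) (by positivity)
  have k5 : |E x - b x| ≤ B + 2 := abs_le.2 ⟨by linarith, by linarith⟩
  have k6 := mul_le_mul k5 g1 (gn_nonneg _ _ _) (by positivity)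
  rw [gn_zero fun j => pd_const _ j x] at k1
  have k7 : gn g (it s₃ (it s₁ b E) fun _ => 0) x ≤
      (1 - s₁ x) * gn g b x + s₁ x * gn g E x + 2 * ((B + 2) * κ) := by
    nlinarith [mul_nonneg t0 (gn_nonneg g (it s₁ b E) x)]
  have lκ : l * κ ≤ B * κ := mul_le_mul_of_nonneg_right lB κ0
  have k8 : l * (2 * ((B + 2) * κ)) ≤ ε := by
    nlinarith [mul_le_mul_of_nonneg_left lκ (by positivity : 0 ≤ B + 2), mul_nonneg B0 κ0,
      mul_nonneg (sq_nonneg B) κ0]
  nlinarith [mul_le_mul_of_nonneg_left k7 l0.le, mul_le_mul_of_nonneg_left gb (sub_nonneg.2 r1),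
    mul_le_mul_of_nonneg_left gE r0]

omit [Mf0 n M] in
theorem mix_one (a b : St n M) : mix 1 a b = b := by
  unfold mix
  ext <;> simp

theorem val_end {K : Set M} {V : M → ℝ} {a b : St n M} (h : Reach g₀ K V a b)
    (ha : Val g₀ K V a) : Val g₀ K V b := by
  rcases Relation.ReflTransGen.cases_tail h with rfl | ⟨c, -, hc⟩
  · exact ha
  · simpa only [mix_one] using hc.val 1 ⟨zero_le_one, le_rfl⟩

end

theorem fin : FIN := by
  refine ⟨8 * DD, fun n k M _ g g' v v' l l'' u G E O a a' C c ε B ρ hB a0 a1 C1 c4 hR sl sE su gu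
    ρ0 hD out inn pl => ?_⟩
  have l0 := hB.ok.l0
  have hV : Val g (K4 G O) (fun x => a' / l x ^ 2) (g', v') := val_end hR
    ⟨hB.ok.met, hB.ok.cc, Up.rfl' g, fun x hx => by
      rw [div_le_iff₀ (pow_pos (l0 x) 2)]
      linarith [(hB.bd x hx).1]⟩
  have hg' : Met g' := hV.met
  have dn : ∀ w x, gn g' w x ≤ gn g w x := fun w x => Up.gn_le hV.up hB.ok.met hg' w x
  have D0 : 0 < DD := one_pos.trans_le DD_ge
  set κ := DD * ρ⁻¹ with hκ
  have κ0 : 0 < κ := by positivity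
  have hκε : 8 * (|B| + 1) ^ 2 * κ ≤ ε := by
    rw [hκ, ← mul_assoc, ← div_eq_mul_inv, div_le_iff₀ ρ0]; linarith
  have ε0 : 0 ≤ ε := le_trans (by positivity) hκε
  have gp : ∀ b x, gn g' (sg b ρ⁻¹ u) x ≤ κ := fun b x => by
    simpa only [abs_of_pos (inv_pos.2 ρ0)] using gn_sg su (gu x) b ρ⁻¹
  have gm : ∀ b x, gn g' (sg b (-ρ⁻¹) u) x ≤ κ := fun b x => by
    simpa only [abs_neg, abs_of_pos (inv_pos.2 ρ0)] using gn_sg su (gu x) b (-ρ⁻¹)
  have ρi : ρ⁻¹ * ρ = 1 := inv_mul_cancel₀ ρ0.ne'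
  have ρp : 0 < ρ⁻¹ := inv_pos.2 ρ0
  have m0 : ∀ b x, b * ρ ≤ u x → sg b (-ρ⁻¹) u x = 0 := fun b x h => sg_m0 ρ0 h
  have m1 : ∀ b x, u x ≤ (b - 1) * ρ → sg b (-ρ⁻¹) u x = 1 := fun b x h => sg_m1 ρ0 h
  have p0 : ∀ x, u x ≤ -(3 * ρ) → sg 3 ρ⁻¹ u x = 0 := fun x h =>
    smoothTransition.zero_of_nonpos (by nlinarith [mul_le_mul_of_nonneg_left h ρp.le])
  have p1 : ∀ x, -(2 * ρ) ≤ u x → sg 3 ρ⁻¹ u x = 1 := fun x h =>
    smoothTransition.one_of_one_le (by nlinarith [mul_le_mul_of_nonneg_left h ρp.le])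
  set σ : M → ℝ := fun x => sg 3 (-ρ⁻¹) u x * sg 3 ρ⁻¹ u x with hσ
  have sσ : Smooth σ := CD.mul (sm_sg su _ _) (sm_sg su _ _)
  have σ0 : ∀ x, 0 ≤ σ x := fun x => mul_nonneg (sg0 _ _ _ _) (sg0 _ _ _ _)
  have σ1 : ∀ x, σ x ≤ 1 := fun x => mul_le_one₀ (sg1 _ _ _ _) (sg0 _ _ _ _) (sg1 _ _ _ _)
  have σz : ∀ x, 3 * ρ < |u x| → σ x = 0 := fun x h => by
    rcases lt_abs.1 h with h | h
    · simp only [hσ, m0 3 x h.le, zero_mul]
    · simp only [hσ, p0 x (by linarith), mul_zero]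
  have gσ : ∀ x, gn g' σ x ≤ 2 * κ := fun x => by
    have := gn_lin3 hg' (F := σ) (x := x) (f := sg 3 (-ρ⁻¹) u) (h := sg 3 ρ⁻¹ u) (s := u)
      (a := sg 3 ρ⁻¹ u x) (b := sg 3 (-ρ⁻¹) u x) (c := 0) fun i => by
        rw [hσ, pd_mul ((sm_sg su _ _).diff x) ((sm_sg su _ _).diff x)]; ring
    rw [abs_of_nonneg (sg0 _ _ _ _), abs_of_nonneg (sg0 _ _ _ _), abs_zero, zero_mul] at this
    nlinarith [mul_le_mul (sg1 3 ρ⁻¹ u x) (gm 3 x) (gn_nonneg _ _ _) zero_le_one,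
      mul_le_mul (sg1 3 (-ρ⁻¹) u x) (gp 3 x) (gn_nonneg _ _ _) zero_le_one]
  have lz : ∀ x, 3 * ρ < |u x| → it σ l l'' x = l x := fun x h => by simp [it, σz x h]
  have lC : ∀ x, it σ l l'' x ≤ C * l x := fun x => by
    have q : l x ≤ C * l x := le_mul_of_one_le_left (l0 x).le C1
    rcases lt_or_ge (3 * ρ) |u x| with h | h
    · rw [lz x h]; exact q
    · unfold it
      nlinarith [mul_le_mul_of_nonneg_left (pl x h).le (σ0 x),
        mul_le_mul_of_nonneg_left q (sub_nonneg.2 (σ1 x))]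
  have lp : ∀ x, 0 < it σ l l'' x := fun x => by
    rcases lt_or_ge (3 * ρ) |u x| with h | h
    · rw [lz x h]; exact l0 x
    · unfold it
      rcases le_total (l x) (l'' x) with q | q
      · nlinarith [mul_le_mul_of_nonneg_left q (σ0 x), l0 x]
      · nlinarith [mul_le_mul_of_nonneg_left q (sub_nonneg.2 (σ1 x)), (pl x h).l0]
  set s₁ := sg 2 (-ρ⁻¹) u with hs₁
  set s₂ := sg 1 (-ρ⁻¹) u with hs₂
  set s₃ := sg 0 (-ρ⁻¹) u with hs₃
  have ss₁ : Smooth s₁ := sm_sg su _ _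
  have ss₂ : Smooth s₂ := sm_sg su _ _
  have ss₃ : Smooth s₃ := sm_sg su _ _
  set P : M → ℝ := fun x => G (last k) x - 2 * s₂ x with hP
  have sP : Smooth P := CD.sub (hB.smG _) (CD.mul cd_const ss₂)
  set G' : Fin (k + 1) → M → ℝ := fun i => Fin.lastCases (it s₃ P fun _ => -2)
    (fun j => it s₃ (it s₁ (G j.castSucc) (E j)) fun _ => 0) i with hG'
  have Gl : G' (last k) = it s₃ P fun _ => -2 := by simp only [hG', Fin.lastCases_last]
  have Gc : ∀ j : Fin k, G' j.castSucc = it s₃ (it s₁ (G j.castSucc) (E j)) fun _ => 0 :=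
    fun j => by simp only [hG', Fin.lastCases_castSucc]
  have top : ∀ x, 2 * ρ ≤ u x → ∀ i, G' i x = G i x := fun x h i => by
    have e1 : s₁ x = 0 := m0 2 x h
    have e2 : s₂ x = 0 := m0 1 x (by linarith)
    have e3 : s₃ x = 0 := m0 0 x (by linarith)
    induction i using Fin.lastCases with
    | last => simp [Gl, it, hP, e2, e3]
    | cast j => simp [Gc, it, e1, e3]
  have bot : ∀ x, u x ≤ -ρ → ∀ i, G' i x = Fin.lastCases (-2) (fun _ => 0) i := fun x h i => by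
    have e3 : s₃ x = 1 := m1 0 x (by linarith)
    induction i using Fin.lastCases with
    | last => simp [Gl, it, e3]
    | cast j => simp [Gc, it, e3]
  have off : ∀ x ∉ K4 G O, 3 * ρ < u x := fun x hx => out x (by
    by_contra q
    push Not at q
    exact hx ⟨q.1, by linarith [q.2]⟩)
  refine ⟨it σ l l'', G', hR, sm_it sσ hB.ok.sml sl, lp, fun i => ?_,
    fun x hx => lz x ((off x hx).trans_le (le_abs_self _)),
    fun x hx => top x (by linarith [out x hx]), fun x hx => ?_, fun x hx => ⟨?_, ?_, ?_, ?_⟩⟩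
  · induction i using Fin.lastCases with
    | last => rw [Gl]; exact sm_it ss₃ sP cd_const
    | cast j => rw [Gc]; exact sm_it ss₃ (sm_it ss₁ (hB.smG _) (sE j)) cd_const
  · rcases le_total (2 * ρ) (u x) with h2 | h2
    · have : nsq G' x = nsq G x := by simp only [nsq, top x h2]
      rw [this]
      by_contra q
      linarith [inn x hx (by linarith)]
    rw [nsq, Fin.sum_univ_castSucc, Gl]
    simp only [Gc]
    have nn : 0 ≤ ∑ j : Fin k, it s₃ (it s₁ (G j.castSucc) (E j)) (fun _ => 0) x ^ 2 :=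
      Finset.sum_nonneg fun _ _ => sq_nonneg _
    rcases le_total (u x) (-ρ) with h0 | h0
    · have e3 : s₃ x = 1 := m1 0 x (by linarith)
      have : it s₃ P (fun _ => -2) x = -2 := by simp [it, e3]
      rw [this]; linarith
    have hm := (pl x (abs_le.2 ⟨by linarith, by linarith⟩)).hom
    rcases le_total (u x) 0 with h1 | h1
    · have e2 : s₂ x = 1 := m1 1 x (by linarith)
      have : it s₃ P (fun _ => -2) x ≤ -1 := by
        simp only [it, hP, e2]
        nlinarith [mul_le_mul_of_nonneg_left hm.1.le (sub_nonneg.2 (sg1 0 (-ρ⁻¹) u x)),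
          sg0 0 (-ρ⁻¹) u x]
      nlinarith
    have e3 : s₃ x = 0 := m0 0 x (by linarith)
    rcases le_total (u x) ρ with h3 | h3
    · have e1 : s₁ x = 1 := m1 2 x (by linarith)
      have := (hm.2 (s₂ x) ⟨sg0 _ _ _ _, sg1 _ _ _ _⟩).2
      simp only [it, hP, e1, e3, sub_zero, one_mul, zero_mul, add_zero, sub_self, zero_add]
      linarith
    · have e2 : s₂ x = 0 := m0 1 x (by linarith)
      have := (hm.2 (s₁ x) ⟨sg0 _ _ _ _, sg1 _ _ _ _⟩).1
      simp only [it, hP, e2, e3, sub_zero, one_mul, zero_mul, add_zero, mul_zero]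
      linarith
  · have r1 := hV.le x hx
    simp only at r1
    rw [div_le_iff₀ (pow_pos (l0 x) 2)] at r1
    rcases lt_or_ge (3 * ρ) |u x| with h | h
    · rw [lz x h]; linarith
    have R0 : 0 ≤ Rv g' v' x := by
      by_contra q
      nlinarith [pow_pos (l0 x) 2]
    rcases le_total (l x) (l'' x) with q | q
    · have : l x ≤ it σ l l'' x := by unfold it; nlinarith [mul_le_mul_of_nonneg_left q (σ0 x)]
      nlinarith [mul_le_mul_of_nonneg_right (pow_le_pow_left₀ (l0 x).le this 2) R0]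
    · have : l'' x ≤ it σ l l'' x := by
        unfold it; nlinarith [mul_le_mul_of_nonneg_left q (sub_nonneg.2 (σ1 x))]
      nlinarith [mul_le_mul_of_nonneg_right (pow_le_pow_left₀ (pl x h).l0.le this 2) R0,
        (pl x h).rv]
  · nlinarith [lC x, l0 x]
  · have gl : gn g' l x ≤ ε := (dn l x).trans (hB.bd x hx).2.1
    have Cε : ε ≤ C * ε := le_mul_of_one_le_left ε0 C1
    rcases lt_or_ge (3 * ρ) |u x| with h | h
    · have e : it σ l l'' =ᶠ[𝓝 x] l :=
        ((su.cont.abs.tendsto x).eventually (eventually_gt_nhds h)).mono lz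
      rw [gn_congr e]; linarith
    have k1 := gn_it hg' (sσ.diff x) (hB.ok.sml.diff x) (sl.diff x) (σ0 x) (σ1 x)
    have k2 : |l'' x - l x| ≤ |B| := by
      have := (pl x h).bd
      have := le_abs_self B
      exact abs_le.2 ⟨by linarith [(pl x h).l0], by linarith [l0 x]⟩
    have k3 := mul_le_mul k2 (gσ x) (gn_nonneg _ _ _) (abs_nonneg B)
    have k4 : |B| * (2 * κ) ≤ ε := by nlinarith [abs_nonneg B, mul_nonneg (abs_nonneg B) κ0.le]
    nlinarith [mul_le_mul_of_nonneg_left (pl x h).gl (σ0 x),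
      mul_le_mul_of_nonneg_left (gl.trans Cε) (sub_nonneg.2 (σ1 x))]
  · intro i
    have Cε : ε ≤ C * ε := le_mul_of_one_le_left ε0 C1
    have gG : ∀ i, C * l x * gn g' (G i) x ≤ C * ε := fun i => by
      rw [mul_assoc]
      exact mul_le_mul_of_nonneg_left ((mul_le_mul_of_nonneg_left (dn _ x) (l0 x).le).trans
        ((hB.bd x hx).2.2 i)) (by linarith)
    rcases lt_or_ge (2 * ρ) (u x) with h2 | h2
    · have e : G' i =ᶠ[𝓝 x] G i :=
        ((su.cont.tendsto x).eventually (eventually_gt_nhds h2)).mono fun y hy => top y hy.le i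
      rw [gn_congr e]
      nlinarith [mul_le_mul_of_nonneg_right (lC x) (gn_nonneg g' (G i) x), gG i]
    rcases lt_or_ge (u x) (-ρ) with h0 | h0
    · have e : G' i =ᶠ[𝓝 x] fun _ => Fin.lastCases (-2) (fun _ => 0) i :=
        ((su.cont.tendsto x).eventually (eventually_lt_nhds h0)).mono fun y hy => bot y hy.le i
      rw [gn_congr e, gn_zero fun j => pd_const _ j x]
      nlinarith
    have p := pl x (abs_le.2 ⟨by linarith, by linarith⟩)
    have e : it σ l l'' x = l'' x := by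
      simp [it, hσ, m1 3 x (by linarith), p1 x (by linarith)]
    rw [e]
    have aG : ∀ i, |G i x| ≤ 2 := fun i => abs_le_of_sq_le_sq' (by
      have := Finset.single_le_sum (f := fun i => G i x ^ 2) (fun _ _ => sq_nonneg _)
        (Finset.mem_univ i)
      have := hx.2
      unfold nsq at this
      linarith) (by norm_num) |> abs_le.2
    have gG' : ∀ i, l'' x * gn g' (G i) x ≤ C * ε := fun i =>
      (mul_le_mul_of_nonneg_right p.le (gn_nonneg _ _ _)).trans (gG i)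
    have lB : l'' x ≤ |B| := p.bd.2.1.trans (le_abs_self B)
    refine le_trans ?_ (by linarith : C * ε + ε ≤ 2 * C * ε)
    induction i using Fin.lastCases with
    | last =>
      rw [Gl]
      exact gn_last hg' (hB.smG _) ss₂ ss₃ (sg0 _ _ _ _) (sg1 _ _ _ _) (sg0 _ _ _ _) (sg1 _ _ _ _)
        (gm 1 x) (gm 0 x) (aG _) p.l0 lB (gG' _) hκε
    | cast j =>
      rw [Gc]
      exact gn_cast hg' (hB.smG _) (sE j) ss₁ ss₃ (sg0 _ _ _ _) (sg1 _ _ _ _) (sg0 _ _ _ _)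
        (sg1 _ _ _ _) (gm 2 x) (gm 0 x) (aG _) ((p.bd.2.2 j).trans (le_abs_self B)) p.l0 lB (gG' _)
        (p.gE j) hκε

end Vale.Agent.P210Z
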